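import Vale.Agent.P054.R.Defs

/-! P054, TwoStmt: definitions; `BipStmt` = bipartite planar T1 in isometry form. -/

set_option linter.all false
set_option autoImplicit false

namespace Vale.Agent.P054.Two

open Finset Matrix
open Vale.Agent.P054.R

open scoped Classical in
/-- matched pairs of `S` whose first point is on the line `(x, b)` -/
noncomputable def mpl (S : Finset (V3 × V3)) (g : Iso) (x b : V3) : Finset (V3 × V3) :=
  S.filter (fun s => OnL x b s.1 ∧ act g s.1 = s.2)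

/-- **Bipartite planar count** (from `Vale.Agent.P054.PL.coreBip`): isometries (both orientations)
with `≥ K` matched pairs of `S1` on a line, `≥ K` of `S2` on a different line, both lines in a plane
`(n, d)` that contains all matched points, fibres of the partner map of size `≤ B`.
Proof plan: `det = 1` and `det = -1` (replace `(a, c)` by `(a, -c)`) separately; generic rotation
(`J/Generic.exists_generic`) so that all `1 + Q` are invertible; Cayley coordinates. -/
def BipStmt : Prop := ∀ ε : ℝ, 0 < ε → ∃ K : ℕ, 2 ≤ K ∧ ∀ B : ℕ, ∃ C : ℝ, 0 < C ∧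
  ∀ (S1 S2 : Finset (V3 × V3)) (G : Finset Iso) (n : Iso → V3) (d : Iso → ℝ)
    (x1 b1 x2 b2 : Iso → V3),
  (∀ g ∈ G, Orth g ∧ n g ≠ 0 ∧ b1 g ≠ 0 ∧ b2 g ≠ 0 ∧ DiffL (x1 g) (b1 g) (x2 g) (b2 g) ∧
    LinP (x1 g) (b1 g) (n g) (d g) ∧ LinP (x2 g) (b2 g) (n g) (d g) ∧
    K ≤ (mpl S1 g (x1 g) (b1 g)).card ∧ K ≤ (mpl S2 g (x2 g) (b2 g)).card ∧
    ∀ s ∈ S1 ∪ S2, act g s.1 = s.2 → OnP (n g) (d g) s.1) →
  (open scoped Classical in
    ∀ h : Iso, (G.filter (fun g => prt g (n g) (d g) = h)).card ≤ B) →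
  (G.card : ℝ) ≤ C * ((S1.card : ℝ) * S2.card) ^ (1 + ε)

end Vale.Agent.P054.Two
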