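import Vale.Agent.P054.Y.PL.BipCore
import Vale.Agent.P054.Y.PL.IsoA
import Vale.Agent.P054.Two.Defs

/-! P054, TwoStmt: the bipartite planar count in isometry form. -/

set_option linter.all false
set_option autoImplicit false

namespace Vale.Agent.P054.Two

open Finset Matrix
open Vale.Agent.P054.R
open Vale.Agent.P054.PL (Mt Ms mem_Ms Fib GoodB TR HMr HM_e HM_orth HM_det HM_TR cay mt_cay
  orth_mul_t iso_unique prt_eq_of_three par_of_cross off_line lines_eq CoreBipStmt coreBip)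

theorem par_iff {b1 b2 c : V3} (h : crossProduct b1 b2 = 0) (h1 : b1 ≠ 0) (h2 : b2 ≠ 0) :
    crossProduct c b1 = 0 ↔ crossProduct c b2 = 0 := by
  obtain ⟨l, hl⟩ : ∃ l : ℝ, b1 = l • b2 := ⟨_, par_of_cross h h2⟩
  have hl0 : l ≠ 0 := by
    intro hc
    rw [hc, zero_smul] at hl
    exact h1 hl
  rw [hl, map_smul]
  exact ⟨fun h => (smul_eq_zero.1 h).resolve_left hl0, fun h => by rw [h, smul_zero]⟩

theorem diff_of_DiffL {x1 b1 x2 b2 : V3} (h1 : b1 ≠ 0) (h2 : b2 ≠ 0)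
    (h : DiffL x1 b1 x2 b2) : ¬ (crossProduct b1 b2 = 0 ∧ crossProduct (x2 - x1) b1 = 0) := by
  rintro ⟨h3, h4⟩
  apply h
  intro a
  unfold OnL
  have h5 : a - x1 = (a - x2) + (x2 - x1) := by abel
  rw [h5, map_add, LinearMap.add_apply, h4, add_zero]
  exact par_iff h3 h1 h2

/-- three noncollinear matched points -/
theorem three_pts {S1 S2 : Finset (V3 × V3)} {g : Iso} {x1 b1 x2 b2 : V3} (h1 : b1 ≠ 0)
    (h2 : b2 ≠ 0) (h : DiffL x1 b1 x2 b2) (hc1 : 2 ≤ (mpl S1 g x1 b1).card)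
    (hc2 : 2 ≤ (mpl S2 g x2 b2).card) :
    ∃ q1 q2 q3 : V3 × V3, (q1 ∈ S1 ∧ q2 ∈ S1 ∧ q3 ∈ S2) ∧ act g q1.1 = q1.2 ∧ act g q2.1 = q2.2 ∧
      act g q3.1 = q3.2 ∧ crossProduct (q2.1 - q1.1) (q3.1 - q1.1) ≠ 0 := by
  classical
  have hd := diff_of_DiffL h1 h2 h
  obtain ⟨q1, hq1, q2, hq2, h12⟩ := Finset.one_lt_card.1 hc1
  obtain ⟨q3, hq3, q4, hq4, h34⟩ := Finset.one_lt_card.1 hc2
  unfold mpl at hq1 hq2 hq3 hq4
  rw [mem_filter] at hq1 hq2 hq3 hq4
  have h12' : q1.1 ≠ q2.1 := fun he => h12 (Prod.ext he (by rw [← hq1.2.2, ← hq2.2.2, he]))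
  have h34' : q3.1 ≠ q4.1 := fun he => h34 (Prod.ext he (by rw [← hq3.2.2, ← hq4.2.2, he]))
  by_cases h3 : OnL x1 b1 q3.1
  · have h4 : ¬ OnL x1 b1 q4.1 := fun h4 =>
      hd (lines_eq h1 h2 h3 h4 hq3.2.1 hq4.2.1 h34')
    exact ⟨q1, q2, q4, ⟨hq1.1, hq2.1, hq4.1⟩, hq1.2.2, hq2.2.2, hq4.2.2,
      fun hc => h4 (off_line h1 hq1.2.1 hq2.2.1 h12' hc)⟩
  · exact ⟨q1, q2, q3, ⟨hq1.1, hq2.1, hq3.1⟩, hq1.2.2, hq2.2.2, hq3.2.2,
      fun hc => h3 (off_line h1 hq1.2.1 hq2.2.1 h12' hc)⟩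

open scoped Classical in
/-- one orientation -/
theorem bip_sign (ε : ℝ) (K B : ℕ) (hK : 2 ≤ K) (C : ℝ)
    (hC : ∀ (S1 S2 G : Finset (V3 × V3)), (∀ p ∈ G, GoodB S1 S2 K p) → Fib (S1 ∪ S2) G B →
      (G.card : ℝ) ≤ C * ((S1.card : ℝ) * (S2.card : ℝ)) ^ (1 + ε))
    (s : ℝ) (hs : s * s = 1)
    (S1 S2 : Finset (V3 × V3)) (G : Finset Iso) (n : Iso → V3) (d : Iso → ℝ)
    (x1 b1 x2 b2 : Iso → V3) (hdet : ∀ g ∈ G, g.1.det = s)
    (hG : ∀ g ∈ G, Orth g ∧ n g ≠ 0 ∧ b1 g ≠ 0 ∧ b2 g ≠ 0 ∧ DiffL (x1 g) (b1 g) (x2 g) (b2 g) ∧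
      K ≤ (mpl S1 g (x1 g) (b1 g)).card ∧ K ≤ (mpl S2 g (x2 g) (b2 g)).card ∧
      ∀ s ∈ S1 ∪ S2, act g s.1 = s.2 → OnP (n g) (d g) s.1)
    (hB : ∀ h : Iso, (G.filter (fun g => prt g (n g) (d g) = h)).card ≤ B) :
    (G.card : ℝ) ≤ C * ((S1.card : ℝ) * S2.card) ^ (1 + ε) := by
  obtain ⟨Q0, ho, hd, hne⟩ := J.exists_generic (G.image (fun g => s • g.1)) (by
    intro Q hQ
    obtain ⟨g, hg, rfl⟩ := Finset.mem_image.1 hQ
    refine ⟨?_, ?_⟩
    · rw [Matrix.transpose_smul, Matrix.smul_mul, Matrix.mul_smul, smul_smul, hs, one_smul]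
      exact (hG g hg).1
    · rw [Matrix.det_smul, hdet g hg, Fintype.card_fin]
      have : s ^ 3 * s = (s * s) * (s * s) := by ring
      rw [this, hs, one_mul])
  set U : Matrix (Fin 3) (Fin 3) ℝ := s • Q0 with hU
  have hUo : Uᵀ * U = 1 := by
    rw [hU, Matrix.transpose_smul, Matrix.smul_mul, Matrix.mul_smul, smul_smul, hs, one_smul, ho]
  have hUd : U.det = s := by
    rw [hU, Matrix.det_smul, hd, Fintype.card_fin]
    have : s ^ 3 * 1 = (s * s) * s := by ring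
    rw [this, hs, one_mul]
  have hUinj : ∀ v w : V3, U.mulVec v = U.mulVec w → v = w := by
    intro v w h
    have h1 := congrArg (fun u => Uᵀ.mulVec u) h
    simpa [Matrix.mulVec_mulVec, hUo] using h1
  set tw : Iso → Iso := fun g => (U * g.1, U.mulVec g.2) with htw
  have htwo : ∀ g ∈ G, Orth (tw g) := by
    intro g hg
    have := (hG g hg).1
    unfold Orth at this ⊢
    change (U * g.1)ᵀ * (U * g.1) = 1
    rw [Matrix.transpose_mul, Matrix.mul_assoc, ← Matrix.mul_assoc Uᵀ, hUo, one_mul, this]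
  have htwd : ∀ g ∈ G, (1 + (tw g).1).det ≠ 0 := by
    intro g hg
    have h1 := hne (s • g.1) (Finset.mem_image_of_mem _ hg)
    have h2 : (tw g).1 = Q0 * (s • g.1) := by
      change U * g.1 = _
      rw [hU, Matrix.smul_mul, Matrix.mul_smul]
    rw [h2]
    exact h1
  have htwa : ∀ g : Iso, ∀ a : V3, act (tw g) a = U.mulVec (act g a) := by
    intro g a
    unfold act
    change (U * g.1).mulVec a + U.mulVec g.2 = _
    rw [← Matrix.mulVec_mulVec, Matrix.mulVec_add]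
  set φ : Iso → V3 × V3 := fun g => cay (tw g) with hφ
  set ψ : V3 × V3 → V3 × V3 := fun q => (q.1, U.mulVec q.2) with hψ
  have hψi : Function.Injective ψ := by
    intro q q' h
    have e1 : (ψ q).1 = (ψ q').1 := congrArg Prod.fst h
    have e2 : (ψ q).2 = (ψ q').2 := congrArg Prod.snd h
    change q.1 = q'.1 at e1
    change U.mulVec q.2 = U.mulVec q'.2 at e2
    exact Prod.ext e1 (hUinj _ _ e2)
  have hmt : ∀ g ∈ G, ∀ q : V3 × V3, Mt (φ g) (ψ q) ↔ act g q.1 = q.2 := by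
    intro g hg q
    change Mt (cay (tw g)) (q.1, U.mulVec q.2) ↔ _
    rw [mt_cay (htwo g hg) (htwd g hg), htwa]
    exact ⟨fun h => hUinj _ _ h, fun h => by rw [h]⟩
  have hφi : Set.InjOn φ (G : Set Iso) := by
    intro g hg g' hg' h
    have h1 : J.cyOm (tw g) = J.cyOm (tw g') := congrArg Prod.fst h
    have h2 : J.cyW (tw g) = J.cyW (tw g') := congrArg Prod.snd h
    have h3 : tw g = tw g' := J.cy_inj (htwo g hg) (htwd g hg) (htwo g' hg') (htwd g' hg') h1 h2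
    have h4 : U * g.1 = U * g'.1 := congrArg Prod.fst h3
    have h5 : U.mulVec g.2 = U.mulVec g'.2 := congrArg Prod.snd h3
    refine Prod.ext ?_ (hUinj _ _ h5)
    have h6 := congrArg (fun M => Uᵀ * M) h4
    simpa [← Matrix.mul_assoc, hUo] using h6
  -- apply the theorem
  have hmain := hC (S1.image ψ) (S2.image ψ) (G.image φ) ?_ ?_
  · rwa [Finset.card_image_of_injOn hφi, Finset.card_image_of_injective _ hψi,
      Finset.card_image_of_injective _ hψi] at hmain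
  · -- GoodB
    intro p hp
    obtain ⟨g, hg, rfl⟩ := Finset.mem_image.1 hp
    obtain ⟨_, hn, hb1, hb2, hD, hc1, hc2, hpl⟩ := hG g hg
    have hkey : ∀ (S : Finset (V3 × V3)) (x b : V3), (mpl S g x b).card ≤
        ((Ms (S.image ψ) (φ g)).filter (fun q => crossProduct (q.1 - x) b = 0)).card := by
      intro S x b
      rw [← Finset.card_image_of_injective (mpl S g x b) hψi]
      refine Finset.card_le_card ?_
      intro q' hq'
      obtain ⟨q, hq, rfl⟩ := Finset.mem_image.1 hq'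
      unfold mpl at hq
      rw [mem_filter] at hq
      rw [mem_filter, mem_Ms]
      exact ⟨⟨Finset.mem_image_of_mem _ hq.1, (hmt g hg q).2 hq.2.2⟩, hq.2.1⟩
    refine ⟨⟨x1 g, b1 g, x2 g, b2 g, hb1, hb2, hc1.trans (hkey _ _ _), hc2.trans (hkey _ _ _),
      diff_of_DiffL hb1 hb2 hD⟩, n g, hn, ?_⟩
    intro q hq q' hq'
    rw [mem_Ms, ← Finset.image_union] at hq hq'
    obtain ⟨⟨r, hr, rfl⟩, hm⟩ := And.imp_left Finset.mem_image.1 hq
    obtain ⟨⟨r', hr', rfl⟩, hm'⟩ := And.imp_left Finset.mem_image.1 hq'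
    have e1 := hpl r hr ((hmt g hg r).1 hm)
    have e2 := hpl r' hr' ((hmt g hg r').1 hm')
    unfold OnP at e1 e2
    change n g ⬝ᵥ (r'.1 - r.1) = 0
    rw [dotProduct_sub, e1, e2, sub_self]
  · -- Fib
    intro q0' hq0' m hm δ
    rw [← Finset.image_union] at hq0'
    obtain ⟨q0, hq0, rfl⟩ := Finset.mem_image.1 hq0'
    obtain ⟨r, hr⟩ := HM_e hm δ
    set H := Uᵀ * HMr m δ r with hH
    set h : Iso := (H, q0.2 - H.mulVec q0.1) with hh
    have hHo : Orth h := by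
      change Hᵀ * H = 1
      rw [hH, Matrix.transpose_mul, Matrix.transpose_transpose, Matrix.mul_assoc,
        ← Matrix.mul_assoc U, orth_mul_t hUo, one_mul, HM_orth hr]
    have hHd : h.1.det = -s := by
      change H.det = -s
      rw [hH, Matrix.det_mul, Matrix.det_transpose, hUd, HM_det hr]
      ring
    refine le_trans ?_ (hB h)
    rw [← Finset.card_image_of_injOn (hφi.mono (fun g hg => (Finset.mem_filter.1 hg).1) :
      Set.InjOn φ ((G.filter (fun g => prt g (n g) (d g) = h) : Finset Iso) : Set Iso))]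
    refine Finset.card_le_card ?_
    intro p hp
    rw [mem_filter] at hp
    obtain ⟨hpG, hp0, hpT⟩ := hp
    obtain ⟨g, hg, rfl⟩ := Finset.mem_image.1 hpG
    refine Finset.mem_image_of_mem _ (Finset.mem_filter.2 ⟨hg, ?_⟩)
    obtain ⟨hor, hn, hb1, hb2, hD, hc1, hc2, hpl⟩ := hG g hg
    have hact : ∀ q ∈ S1 ∪ S2, act g q.1 = q.2 → act g q.1 = act h q.1 := by
      intro q hq hgq
      have h1 : TR m δ (ψ q0) (ψ q) := by
        refine hpT (ψ q) ?_
        rw [mem_Ms, ← Finset.image_union]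
        exact ⟨Finset.mem_image_of_mem _ hq, (hmt g hg q).2 hgq⟩
      have h2 : U.mulVec q.2 - U.mulVec q0.2 = (HMr m δ r).mulVec (q.1 - q0.1) :=
        HM_TR hr h1.1 h1.2
      have h3 : q.2 - q0.2 = H.mulVec (q.1 - q0.1) := by
        rw [hH, ← Matrix.mulVec_mulVec, ← h2, ← Matrix.mulVec_sub, Matrix.mulVec_mulVec, hUo,
          Matrix.one_mulVec]
      rw [hgq]
      change q.2 = H.mulVec q.1 + (q0.2 - H.mulVec q0.1)
      rw [Matrix.mulVec_sub] at h3
      have : q.2 = (q.2 - q0.2) + q0.2 := by abel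
      rw [this, h3]
      abel
    obtain ⟨q1, q2, q3, ⟨m1, m2, m3⟩, a1, a2, a3, hnc⟩ :=
      three_pts hb1 hb2 hD (hK.trans hc1) (hK.trans hc2)
    have u1 : q1 ∈ S1 ∪ S2 := Finset.mem_union_left _ m1
    have u2 : q2 ∈ S1 ∪ S2 := Finset.mem_union_left _ m2
    have u3 : q3 ∈ S1 ∪ S2 := Finset.mem_union_right _ m3
    refine prt_eq_of_three hor hHo hn ?_ hnc (hpl q1 u1 a1) (hpl q2 u2 a2) (hpl q3 u3 a3)
      (hact q1 u1 a1) (hact q2 u2 a2) (hact q3 u3 a3)
    rw [hdet g hg, hHd]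
    linarith

/-- **Bipartite planar count** for isometries. -/
theorem bip : BipStmt := by
  classical
  intro ε hε
  obtain ⟨K0, hK0⟩ := coreBip ε hε
  refine ⟨max K0 2, le_max_right _ _, fun B => ?_⟩
  obtain ⟨C, hC0, hC⟩ := hK0 B
  refine ⟨2 * C, by positivity, ?_⟩
  intro S1 S2 G n d x1 b1 x2 b2 hG hB
  have hC' : ∀ (S1 S2 G : Finset (V3 × V3)), (∀ p ∈ G, GoodB S1 S2 (max K0 2) p) →
      Fib (S1 ∪ S2) G B → (G.card : ℝ) ≤ C * ((S1.card : ℝ) * (S2.card : ℝ)) ^ (1 + ε) := by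
    intro S1 S2 G h1 h2
    refine hC S1 S2 G (fun p hp => ?_) h2
    obtain ⟨⟨y1, c1, y2, c2, e1, e2, e3, e4, e5⟩, e6⟩ := h1 p hp
    exact ⟨⟨y1, c1, y2, c2, e1, e2, (le_max_left _ _).trans e3, (le_max_left _ _).trans e4, e5⟩,
      e6⟩
  have hdet : ∀ g ∈ G, g.1.det = 1 ∨ g.1.det = -1 := by
    intro g hg
    have h1 := (hG g hg).1
    unfold Orth at h1
    have h2 := congrArg Matrix.det h1
    rw [Matrix.det_mul, Matrix.det_transpose, Matrix.det_one] at h2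
    exact mul_self_eq_one_iff.1 h2
  have hsplit : G = G.filter (fun g => g.1.det = 1) ∪ G.filter (fun g => g.1.det = -1) := by
    ext g
    rw [mem_union, mem_filter, mem_filter]
    constructor
    · intro hg
      rcases hdet g hg with h | h
      · exact Or.inl ⟨hg, h⟩
      · exact Or.inr ⟨hg, h⟩
    · rintro (h | h)
      · exact h.1
      · exact h.1
  have hone : ∀ s : ℝ, s * s = 1 → ((G.filter (fun g => g.1.det = s)).card : ℝ) ≤
      C * ((S1.card : ℝ) * S2.card) ^ (1 + ε) := by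
    intro s hs
    refine bip_sign ε (max K0 2) B (le_max_right _ _) C hC' s hs S1 S2 _ n d x1 b1 x2 b2
      (fun g hg => (mem_filter.1 hg).2) (fun g hg => ?_) (fun h => ?_)
    · obtain ⟨e1, e2, e3, e4, e5, _, _, e6, e7, e8⟩ := hG g (mem_filter.1 hg).1
      exact ⟨e1, e2, e3, e4, e5, e6, e7, e8⟩
    · refine le_trans (Finset.card_le_card ?_) (hB h)
      exact Finset.filter_subset_filter _ (Finset.filter_subset _ _)
  have h1 := hone 1 (by norm_num)
  have h2 := hone (-1) (by norm_num)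
  have h3 : (G.card : ℝ) ≤ ((G.filter (fun g => g.1.det = 1)).card : ℝ) +
      ((G.filter (fun g => g.1.det = -1)).card : ℝ) := by
    have h4 : G.card ≤ (G.filter (fun g => g.1.det = 1)).card +
        (G.filter (fun g => g.1.det = -1)).card := by
      conv_lhs => rw [hsplit]
      exact Finset.card_union_le _ _
    exact_mod_cast h4
  linarith

end Vale.Agent.P054.Two
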