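import Vale.Agent.P054.Two.Fib

/-! P054: `TwoStmt` from the two lines lemma (L3), theorem J and the bipartite planar count. -/

set_option linter.all false
set_option autoImplicit false

namespace Vale.Agent.P054.Two

open Finset Matrix
open Vale.Agent.P054.R
open Vale.Agent.P054.L3 (mtl mps psi two_lines_iso)

theorem mps_eq (S : Finset (V3 × V3)) (g : Iso) (x b : V3) (hb : b ≠ 0) :
    mps S g x b = mpl S g x b := by
  classical
  unfold mps mpl act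
  refine Finset.filter_congr (fun s _ => ?_)
  rw [onL_iff x b s.1 hb]

theorem mtl_card (X Y : Finset V3) (g : Iso) (x b : V3) (hb : b ≠ 0) :
    (mtl X Y g x b).card = on (M g X Y) x b := by
  classical
  unfold mtl on M act
  rw [Finset.filter_filter]
  congr 1
  refine Finset.filter_congr (fun s _ => ?_)
  rw [onL_iff x b s hb, and_comm]

theorem le_rpow_self (N : ℕ) (e : ℝ) (he : 0 ≤ e) : (N : ℝ) ≤ (N : ℝ) ^ (1 + e) := by
  rcases Nat.eq_zero_or_pos N with h | h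
  · rw [h]
    simp only [Nat.cast_zero]
    exact Real.rpow_nonneg le_rfl _
  · have h1 : (1 : ℝ) ≤ N := by exact_mod_cast h
    calc (N : ℝ) = (N : ℝ) ^ (1 : ℝ) := (Real.rpow_one _).symm
      _ ≤ (N : ℝ) ^ (1 + e) := Real.rpow_le_rpow_of_exponent_le h1 (by linarith)

open scoped Classical in
/-- the base hypothesis of the two lines lemma -/
theorem base_hyp (e₀ : ℝ) (he : 0 ≤ e₀) (K : ℕ) (hK : 2 ≤ K) (C1 : ℝ) (hC1 : 0 < C1) (K3 : ℕ)
    (hBip : ∀ (S1 S2 : Finset (V3 × V3)) (G : Finset Iso) (n : Iso → V3) (d : Iso → ℝ)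
      (x1 b1 x2 b2 : Iso → V3),
      (∀ g ∈ G, Orth g ∧ n g ≠ 0 ∧ b1 g ≠ 0 ∧ b2 g ≠ 0 ∧ DiffL (x1 g) (b1 g) (x2 g) (b2 g) ∧
        LinP (x1 g) (b1 g) (n g) (d g) ∧ LinP (x2 g) (b2 g) (n g) (d g) ∧
        K ≤ (mpl S1 g (x1 g) (b1 g)).card ∧ K ≤ (mpl S2 g (x2 g) (b2 g)).card ∧
        ∀ s ∈ S1 ∪ S2, act g s.1 = s.2 → OnP (n g) (d g) s.1) →
      (∀ h : Iso, (G.filter (fun g => prt g (n g) (d g) = h)).card ≤ 32 * K3 ^ 3) →
      (G.card : ℝ) ≤ C1 * ((S1.card : ℝ) * S2.card) ^ (1 + e₀))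
    (X Y : Finset V3) (G : Finset Iso) (horth : ∀ g ∈ G, Orth g)
    (k : Iso → ℕ) (x1 b1 x2 b2 : Iso → V3)
    (hG : ∀ g ∈ G, 4 ≤ k g ∧ b1 g ≠ 0 ∧ b2 g ≠ 0 ∧ DiffL (x1 g) (b1 g) (x2 g) (b2 g) ∧
      k g ≤ on (M g X Y) (x1 g) (b1 g) ∧ k g ≤ on (M g X Y) (x2 g) (b2 g) ∧
      ∀ (n : V3) (d : ℝ), n ≠ 0 → LinP (x1 g) (b1 g) n d → LinP (x2 g) (b2 g) n d →
        rho (M (prt g n d) X Y) ≤ K3 * k g)
    (S1 S2 : Finset (V3 × V3)) :
    ((G.filter (fun g => K ≤ (mps S1 g (x1 g) (b1 g)).card ∧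
      K ≤ (mps S2 g (x2 g) (b2 g)).card)).card : ℝ) ≤
      (20 + C1) * ((S1.card * S2.card : ℕ) : ℝ) ^ (1 + e₀) := by
  set F := G.filter (fun g => K ≤ (mps S1 g (x1 g) (b1 g)).card ∧
      K ≤ (mps S2 g (x2 g) (b2 g)).card) with hF
  -- facts
  have hF1 : ∀ g ∈ F, g ∈ G ∧ K ≤ (mpl S1 g (x1 g) (b1 g)).card ∧
      K ≤ (mpl S2 g (x2 g) (b2 g)).card := by
    intro g hg
    obtain ⟨hgG, h1, h2⟩ := mem_filter.1 hg
    obtain ⟨_, hb1, hb2, _⟩ := hG g hgG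
    rw [mps_eq _ _ _ _ hb1] at h1
    rw [mps_eq _ _ _ _ hb2] at h2
    exact ⟨hgG, h1, h2⟩
  set cop : Iso → Prop := fun g => ∃ (n : V3) (d : ℝ), n ≠ 0 ∧ LinP (x1 g) (b1 g) n d ∧
    LinP (x2 g) (b2 g) n d with hcop
  have hch : ∀ g : Iso, ∃ (n : V3) (d : ℝ), cop g → (n ≠ 0 ∧ LinP (x1 g) (b1 g) n d ∧
    LinP (x2 g) (b2 g) n d) := by
    intro g
    by_cases h : cop g
    · obtain ⟨n, d, h'⟩ := h
      exact ⟨n, d, fun _ => h'⟩
    · exact ⟨0, 0, fun h' => absurd h' h⟩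
  choose n d hnd using hch
  set PO : Iso → Prop := fun g => ∃ s ∈ S1 ∪ S2, act g s.1 = s.2 ∧ ¬ OnP (n g) (d g) s.1 with hPO
  set F1 := F.filter (fun g => ¬ cop g) with hF1d
  set F2 := F.filter (fun g => cop g ∧ PO g) with hF2d
  set F3 := F.filter (fun g => cop g ∧ ¬ PO g) with hF3d
  have hcov : F ⊆ F1 ∪ F2 ∪ F3 := by
    intro g hg
    rw [mem_union, mem_union]
    by_cases h1 : cop g
    · by_cases h2 : PO g
      · exact Or.inl (Or.inr (mem_filter.2 ⟨hg, h1, h2⟩))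
      · exact Or.inr (mem_filter.2 ⟨hg, h1, h2⟩)
    · exact Or.inl (Or.inl (mem_filter.2 ⟨hg, h1⟩))
  have hcard : F.card ≤ F1.card + F2.card + F3.card :=
    le_trans (card_le_card hcov) (le_trans (card_union_le _ _)
      (Nat.add_le_add_right (card_union_le _ _) _))
  have c1 : F1.card ≤ 10 * (S1.card * S2.card) := by
    refine jointE_card S1 S2 F1 ?_
    intro g hg
    obtain ⟨hgF, hnc⟩ := mem_filter.1 hg
    obtain ⟨hgG, h1, h2⟩ := hF1 g hgF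
    obtain ⟨_, hb1, hb2, hdiff, _⟩ := hG g hgG
    exact joint_of_skew (horth g hgG) hb1 hb2 (le_trans hK h1) (le_trans hK h2) hnc
  have c2 : F2.card ≤ 10 * (S1.card * S2.card) := by
    refine jointE_card S1 S2 F2 ?_
    intro g hg
    obtain ⟨hgF, hc, hp⟩ := mem_filter.1 hg
    obtain ⟨hgG, h1, h2⟩ := hF1 g hgF
    obtain ⟨_, hb1, hb2, hdiff, _⟩ := hG g hgG
    obtain ⟨hn, hL1, hL2⟩ := hnd g hc
    exact joint_of_off (horth g hgG) hb1 hb2 hdiff (le_trans hK h1) (le_trans hK h2) hn hL1 hL2 hp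
  have c3 : (F3.card : ℝ) ≤ C1 * ((S1.card : ℝ) * S2.card) ^ (1 + e₀) := by
    refine hBip S1 S2 F3 n d x1 b1 x2 b2 ?_ ?_
    · intro g hg
      obtain ⟨hgF, hc, hp⟩ := mem_filter.1 hg
      obtain ⟨hgG, h1, h2⟩ := hF1 g hgF
      obtain ⟨_, hb1, hb2, hdiff, _⟩ := hG g hgG
      obtain ⟨hn, hL1, hL2⟩ := hnd g hc
      refine ⟨horth g hgG, hn, hb1, hb2, hdiff, hL1, hL2, h1, h2, ?_⟩
      intro s hs hgs
      by_contra hno
      exact hp ⟨s, hs, hgs, hno⟩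
    · intro h
      refine fibre_bound K3 X Y F3 k n d x1 b1 x2 b2 ?_ h
      intro g hg
      obtain ⟨hgF, hc, hp⟩ := mem_filter.1 hg
      obtain ⟨hgG, h1, h2⟩ := hF1 g hgF
      obtain ⟨hk, hb1, hb2, hdiff, ho1, ho2, hcmp⟩ := hG g hgG
      obtain ⟨hn, hL1, hL2⟩ := hnd g hc
      exact ⟨hk, hn, hb1, hb2, hdiff, hL1, hL2, ho1, ho2, hcmp _ _ hn hL1 hL2⟩
  have hN : ((S1.card * S2.card : ℕ) : ℝ) ≤ ((S1.card * S2.card : ℕ) : ℝ) ^ (1 + e₀) :=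
    le_rpow_self _ _ he
  have hcast : (S1.card : ℝ) * S2.card = ((S1.card * S2.card : ℕ) : ℝ) := by push_cast; ring
  rw [hcast] at c3
  have c1' : (F1.card : ℝ) ≤ 10 * ((S1.card * S2.card : ℕ) : ℝ) := by exact_mod_cast c1
  have c2' : (F2.card : ℝ) ≤ 10 * ((S1.card * S2.card : ℕ) : ℝ) := by exact_mod_cast c2
  have hcard' : (F.card : ℝ) ≤ F1.card + F2.card + F3.card := by exact_mod_cast hcard
  nlinarith

theorem two (hBip : BipStmt) : TwoStmt := by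
  classical
  intro ε hε K3
  obtain ⟨K, hK, hB⟩ := hBip (ε / 4) (by positivity)
  obtain ⟨C1, hC1, hB'⟩ := hB (32 * K3 ^ 3)
  obtain ⟨C, hC0, hL⟩ := two_lines_iso K hK (20 + C1) (ε / 4) (by positivity) (by positivity)
    (ε / 2) (by linarith)
  refine ⟨max K 4, C + 1, by positivity, ?_⟩
  intro X Y G horth k x1 b1 x2 b2 hG
  have h := hL X Y X Y G x1 b1 x2 b2 horth (fun g hg => (hG g hg).2.1) (fun g hg => (hG g hg).2.2.1)
    (fun S1 S2 => base_hyp (ε / 4) (by positivity) K hK C1 hC1 K3 hB' X Y G horth k x1 b1 x2 b2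
      (fun g hg => by
        obtain ⟨hk, h⟩ := hG g hg
        exact ⟨le_trans (le_max_right _ _) hk, h⟩) S1 S2)
  have h2 : ∑ g ∈ G, ((k g : ℕ) : ℝ) ^ 3 ≤
      ∑ g ∈ G, (psi K (mtl X Y g (x1 g) (b1 g)).card (mtl X Y g (x2 g) (b2 g)).card : ℝ) := by
    refine Finset.sum_le_sum (fun g hg => ?_)
    obtain ⟨hk, hb1, hb2, hdiff, ho1, ho2, _⟩ := hG g hg
    rw [mtl_card _ _ _ _ _ hb1, mtl_card _ _ _ _ _ hb2]
    have hkK : K ≤ k g := le_trans (le_max_left _ _) hk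
    unfold psi
    rw [if_pos ⟨le_trans hkK ho1, le_trans hkK ho2⟩]
    have h3 : (k g) ^ 3 ≤ on (M g X Y) (x1 g) (b1 g) * on (M g X Y) (x2 g) (b2 g) *
        min (on (M g X Y) (x1 g) (b1 g)) (on (M g X Y) (x2 g) (b2 g)) := by
      calc (k g) ^ 3 = k g * k g * k g := by ring
        _ ≤ _ := Nat.mul_le_mul (Nat.mul_le_mul ho1 ho2) (le_min ho1 ho2)
    exact_mod_cast h3
  refine le_trans h2 (le_trans h ?_)
  have h4 : ((X.card * Y.card * X.card * Y.card : ℕ) : ℝ) ^ (1 + ε / 2) =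
      ((X.card : ℝ) * Y.card) ^ (2 + ε) := by
    have h5 : ((X.card * Y.card * X.card * Y.card : ℕ) : ℝ) = ((X.card : ℝ) * Y.card) ^ (2 : ℝ) := by
      push_cast
      rw [Real.rpow_two]
      ring
    rw [h5, ← Real.rpow_mul (by positivity)]
    congr 1
    ring
  rw [h4]
  have h6 : 0 ≤ ((X.card : ℝ) * Y.card) ^ (2 + ε) := Real.rpow_nonneg (by positivity) _
  nlinarith

end Vale.Agent.P054.Two
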