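import Vale.Agent.P054.J.Geom

/-! Theorem J for isometries of both orientations. -/

set_option linter.all false
set_option autoImplicit false

namespace Vale.Agent.P054.Two

open Finset Matrix Vale.Agent.P054.J

/-- `g = (Q, v)`, `Q` orthogonal, matches four affinely independent points, two of each family -/
def JointE (S1 S2 : Finset ((Fin 3 → ℝ) × (Fin 3 → ℝ)))
    (g : Matrix (Fin 3) (Fin 3) ℝ × (Fin 3 → ℝ)) : Prop :=
  g.1ᵀ * g.1 = 1 ∧
    ∃ p : Fin 4 → (Fin 3 → ℝ) × (Fin 3 → ℝ), p 0 ∈ S1 ∧ p 1 ∈ S1 ∧ p 2 ∈ S2 ∧ p 3 ∈ S2 ∧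
      (∀ i, g.1.mulVec (p i).1 + g.2 = (p i).2) ∧ AffineIndependent ℝ (fun i => (p i).1)

theorem det_pm (Q : Matrix (Fin 3) (Fin 3) ℝ) (h : Qᵀ * Q = 1) : Q.det = 1 ∨ Q.det = -1 := by
  have h1 := congrArg Matrix.det h
  rw [Matrix.det_mul, Matrix.det_transpose, Matrix.det_one] at h1
  exact mul_self_eq_one_iff.1 h1

theorem jointE_card (S1 S2 : Finset ((Fin 3 → ℝ) × (Fin 3 → ℝ)))
    (G : Finset (Matrix (Fin 3) (Fin 3) ℝ × (Fin 3 → ℝ)))
    (hG : ∀ g ∈ G, JointE S1 S2 g) : G.card ≤ 10 * (S1.card * S2.card) := by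
  classical
  set Gp := G.filter (fun g => g.1.det = 1) with hGp
  set Gm := G.filter (fun g => ¬ g.1.det = 1) with hGm
  have hsplit : Gp.card + Gm.card = G.card := Finset.card_filter_add_card_filter_not _
  have h1 : Gp.card ≤ 5 * S1.card * S2.card := by
    refine simplex_joints S1 S2 Gp ?_
    intro g hg
    rw [hGp, mem_filter] at hg
    obtain ⟨ho, p, h0, h1, h2, h3, hm, ha⟩ := hG g hg.1
    exact ⟨ho, hg.2, p, h0, h1, h2, h3, hm, ha⟩
  have h2 : Gm.card ≤ 5 * S1.card * S2.card := by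
    set neg : (Fin 3 → ℝ) × (Fin 3 → ℝ) → (Fin 3 → ℝ) × (Fin 3 → ℝ) := fun q => (q.1, -q.2) with hneg
    set ng : Matrix (Fin 3) (Fin 3) ℝ × (Fin 3 → ℝ) → Matrix (Fin 3) (Fin 3) ℝ × (Fin 3 → ℝ) :=
      fun g => (-g.1, -g.2) with hng
    have hinj : Function.Injective ng := by
      intro a b hab
      have e1 := congrArg Prod.fst hab
      have e2 := congrArg Prod.snd hab
      simp only [hng, neg_inj] at e1 e2
      exact Prod.ext e1 e2
    have hcard : (Gm.image ng).card = Gm.card := Finset.card_image_of_injective _ hinj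
    have h3 : (Gm.image ng).card ≤ 5 * (S1.image neg).card * (S2.image neg).card := by
      refine simplex_joints (S1.image neg) (S2.image neg) (Gm.image ng) ?_
      intro g' hg'
      rw [mem_image] at hg'
      obtain ⟨g, hg, rfl⟩ := hg'
      rw [hGm, mem_filter] at hg
      obtain ⟨ho, p, h0, h1, h2, h3, hm, ha⟩ := hG g hg.1
      have hdet : g.1.det = -1 := (det_pm g.1 ho).resolve_left hg.2
      refine ⟨?_, ?_, fun i => neg (p i), mem_image_of_mem _ h0, mem_image_of_mem _ h1,
        mem_image_of_mem _ h2, mem_image_of_mem _ h3, ?_, ha⟩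
      · simp only [hng, Matrix.transpose_neg, neg_mul_neg]
        exact ho
      · simp only [hng]
        rw [Matrix.det_neg, hdet]
        norm_num [Fintype.card_fin]
      · intro i
        simp only [hng, hneg, Matrix.neg_mulVec]
        rw [← hm i]
        abel
    rw [← hcard]
    refine le_trans h3 ?_
    exact Nat.mul_le_mul (Nat.mul_le_mul_left _ card_image_le) card_image_le
  rw [← hsplit]
  calc Gp.card + Gm.card ≤ 5 * S1.card * S2.card + 5 * S1.card * S2.card := Nat.add_le_add h1 h2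
    _ = 10 * (S1.card * S2.card) := by ring

end Vale.Agent.P054.Two
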