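import Vale.Agent.P054.R.Basic
import Vale.Agent.P054.Two.Defs
import Vale.Agent.P054.Two.JBoth
import Vale.Agent.P054.L3.Iso

/-! P054, TwoStmt: elementary geometry. -/

set_option linter.all false
set_option autoImplicit false

namespace Vale.Agent.P054.Two

open Finset Matrix
open Vale.Agent.P054.R

/-- the two descriptions of a line -/
theorem onL_iff (x b a : V3) (hb : b ≠ 0) : OnL x b a ↔ a ∈ Vale.Agent.P054.L2.lineSet x b := by
  unfold OnL Vale.Agent.P054.L2.lineSet Vale.Agent.P054.L2.lpt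
  constructor
  · intro h
    rw [cross_apply] at h
    have h0 : (a 1 - x 1) * b 2 - (a 2 - x 2) * b 1 = 0 := congrFun h 0
    have h1 : (a 2 - x 2) * b 0 - (a 0 - x 0) * b 2 = 0 := congrFun h 1
    have h2 : (a 0 - x 0) * b 1 - (a 1 - x 1) * b 0 = 0 := congrFun h 2
    have hb' : b 0 ≠ 0 ∨ b 1 ≠ 0 ∨ b 2 ≠ 0 := by
      by_contra hc
      push Not at hc
      apply hb
      funext i
      fin_cases i
      · exact hc.1
      · exact hc.2.1
      · exact hc.2.2
    rcases hb' with h3 | h3 | h3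
    · refine ⟨(a 0 - x 0) / b 0, ?_⟩
      funext i
      fin_cases i
      · simp; field_simp; ring
      · simp; field_simp; linarith
      · simp; field_simp; linarith
    · refine ⟨(a 1 - x 1) / b 1, ?_⟩
      funext i
      fin_cases i
      · simp; field_simp; linarith
      · simp; field_simp; ring
      · simp; field_simp; linarith
    · refine ⟨(a 2 - x 2) / b 2, ?_⟩
      funext i
      fin_cases i
      · simp; field_simp; linarith
      · simp; field_simp; linarith
      · simp; field_simp; ring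
  · rintro ⟨t, rfl⟩
    rw [add_sub_cancel_left, map_smul, LinearMap.smul_apply, cross_self, smul_zero]

/-- four points that are in no common plane are affinely independent -/
theorem affInd_of_noPlane (p : Fin 4 → V3)
    (h : ∀ (n : V3) (d : ℝ), n ≠ 0 → ∃ i, ¬ OnP n d (p i)) : AffineIndependent ℝ p := by
  rw [affineIndependent_iff_linearIndependent_vsub ℝ p 0]
  by_contra hli
  -- the three difference vectors are dependent: a common normal vector
  let A : Matrix (Fin 3) (Fin 3) ℝ := Matrix.of ![p 1 - p 0, p 2 - p 0, p 3 - p 0]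
  have hdet : A.det = 0 := by
    by_contra hd
    apply hli
    have hrows : LinearIndependent ℝ (fun i => A i) :=
      Matrix.linearIndependent_rows_of_det_ne_zero hd
    let e : {x : Fin 4 // x ≠ 0} → Fin 3 := fun x => ⟨x.1.val - 1, by
      have h1 := x.1.isLt
      have h2 : x.1.val ≠ 0 := fun h => x.2 (Fin.ext h)
      omega⟩
    have he : Function.Injective e := by
      intro x y hxy
      have h2 : x.1.val ≠ 0 := fun h => x.2 (Fin.ext h)
      have h3 : y.1.val ≠ 0 := fun h => y.2 (Fin.ext h)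
      have h4 : x.1.val - 1 = y.1.val - 1 := congrArg Fin.val hxy
      apply Subtype.ext
      apply Fin.ext
      omega
    have h5 := hrows.comp e he
    have h6 : ((fun i => A i) ∘ e) = fun i : {x : Fin 4 // x ≠ 0} => p i.1 -ᵥ p 0 := by
      funext x
      obtain ⟨x, hx⟩ := x
      fin_cases x
      · exact absurd rfl hx
      · rfl
      · rfl
      · rfl
    rw [h6] at h5
    exact h5
  obtain ⟨n, hn, hAn⟩ := Matrix.exists_mulVec_eq_zero_iff.2 hdet
  obtain ⟨i, hi⟩ := h n (n ⬝ᵥ p 0) hn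
  apply hi
  unfold OnP
  have h1 : n ⬝ᵥ (p i - p 0) = 0 := by
    fin_cases i
    · simp
    · have := congrFun hAn 0
      simp only [Matrix.mulVec, A, Matrix.of_apply, Pi.zero_apply] at this
      rw [dotProduct_comm]; exact this
    · have := congrFun hAn 1
      simp only [Matrix.mulVec, A, Matrix.of_apply, Pi.zero_apply] at this
      rw [dotProduct_comm]; exact this
    · have := congrFun hAn 2
      simp only [Matrix.mulVec, A, Matrix.of_apply, Pi.zero_apply] at this
      rw [dotProduct_comm]; exact this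
  rw [dotProduct_sub, sub_eq_zero] at h1
  exact h1

open scoped Classical in
/-- two points with different first coordinates out of two matched pairs -/
theorem two_of_mpl {S : Finset (V3 × V3)} {g : Iso} {x b : V3} (h : 2 ≤ (mpl S g x b).card) :
    ∃ s ∈ S, ∃ s' ∈ S, s.1 ≠ s'.1 ∧ OnL x b s.1 ∧ OnL x b s'.1 ∧ act g s.1 = s.2 ∧
      act g s'.1 = s'.2 := by
  obtain ⟨s, hs, s', hs', hne⟩ := Finset.one_lt_card.1 (lt_of_lt_of_le one_lt_two h)
  unfold mpl at hs hs'
  rw [mem_filter] at hs hs'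
  refine ⟨s, hs.1, s', hs'.1, ?_, hs.2.1, hs'.2.1, hs.2.2, hs'.2.2⟩
  intro h1
  apply hne
  refine Prod.ext h1 ?_
  rw [← hs.2.2, ← hs'.2.2, h1]

/-- skew lines -/
theorem joint_of_skew {S1 S2 : Finset (V3 × V3)} {g : Iso} (hg : Orth g) {x1 b1 x2 b2 : V3}
    (hb1 : b1 ≠ 0) (hb2 : b2 ≠ 0)
    (h1 : 2 ≤ (mpl S1 g x1 b1).card) (h2 : 2 ≤ (mpl S2 g x2 b2).card)
    (hno : ¬ ∃ (n : V3) (d : ℝ), n ≠ 0 ∧ LinP x1 b1 n d ∧ LinP x2 b2 n d) : JointE S1 S2 g := by
  obtain ⟨s, hs, s', hs', hne, ho, ho', ha, ha'⟩ := two_of_mpl h1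
  obtain ⟨u, hu, u', hu', hneu, hou, hou', hau, hau'⟩ := two_of_mpl h2
  refine ⟨hg, ![s, s', u, u'], hs, hs', hu, hu', ?_, ?_⟩
  · intro i
    fin_cases i
    · exact ha
    · exact ha'
    · exact hau
    · exact hau'
  · refine affInd_of_noPlane _ ?_
    intro n d hn
    by_contra hc
    push Not at hc
    apply hno
    refine ⟨n, d, hn, LinP_of_two hb1 hne ho ho' (hc 0) (hc 1), LinP_of_two hb2 hneu hou hou' (hc 2) (hc 3)⟩

/-- coplanar lines and a matched point off the plane -/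
theorem joint_of_off {S1 S2 : Finset (V3 × V3)} {g : Iso} (hg : Orth g) {x1 b1 x2 b2 : V3}
    (hb1 : b1 ≠ 0) (hb2 : b2 ≠ 0) (hdiff : DiffL x1 b1 x2 b2)
    (h1 : 2 ≤ (mpl S1 g x1 b1).card) (h2 : 2 ≤ (mpl S2 g x2 b2).card)
    {n : V3} {d : ℝ} (hn : n ≠ 0) (hL1 : LinP x1 b1 n d) (hL2 : LinP x2 b2 n d)
    (hoff : ∃ s ∈ S1 ∪ S2, act g s.1 = s.2 ∧ ¬ OnP n d s.1) : JointE S1 S2 g := by
  classical
  obtain ⟨s, hs, s', hs', hne, ho, ho', ha, ha'⟩ := two_of_mpl h1
  obtain ⟨u, hu, u', hu', hneu, hou, hou', hau, hau'⟩ := two_of_mpl h2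
  obtain ⟨z, hz, haz, hzoff⟩ := hoff
  -- a point of line 1 off line 2
  have hA : ∃ a ∈ S1, OnL x1 b1 a.1 ∧ act g a.1 = a.2 ∧ ¬ OnL x2 b2 a.1 := by
    by_contra hc
    push Not at hc
    have e1 := hc s hs ho ha
    have e2 := hc s' hs' ho' ha'
    exact hne (DiffL_inter hb1 hb2 hdiff ho e1 ho' e2)
  have hB : ∃ a ∈ S2, OnL x2 b2 a.1 ∧ act g a.1 = a.2 ∧ ¬ OnL x1 b1 a.1 := by
    by_contra hc
    push Not at hc
    have e1 := hc u hu hou hau
    have e2 := hc u' hu' hou' hau'
    exact hneu (DiffL_inter hb1 hb2 hdiff e1 hou e2 hou')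
  obtain ⟨a, haS, haL, haa, haoff⟩ := hA
  obtain ⟨c, hcS, hcL, hca, hcoff⟩ := hB
  -- a plane through a line and a point off the line of the plane `(n, d)` is the plane
  have key : ∀ (x b : V3) (y y' w z : V3), b ≠ 0 → LinP x b n d → y ≠ y' → OnL x b y → OnL x b y' →
      OnP n d w → ¬ OnL x b w → ¬ OnP n d z →
      ∀ (n' : V3) (d' : ℝ), n' ≠ 0 → ¬ (OnP n' d' y ∧ OnP n' d' y' ∧ OnP n' d' w ∧ OnP n' d' z) := by
    intro x b y y' w z hb hL hyy hy hy' hw hwoff hzz n' d' hn' ⟨k1, k2, k3, k4⟩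
    have hcr : crossProduct (y' - y) (w - y) ≠ 0 := by
      intro hcr
      apply hwoff
      have hdir : y' - y ≠ 0 := sub_ne_zero.2 (Ne.symm hyy)
      have e1 : OnL y (y' - y) w := by
        unfold OnL
        rw [← cross_anticomm, hcr, neg_zero]
      rw [onL_iff _ _ _ hdir] at e1
      obtain ⟨t, rfl⟩ := e1
      rw [onL_iff _ _ _ hb] at hy hy' ⊢
      obtain ⟨r, rfl⟩ := hy
      obtain ⟨r', rfl⟩ := hy'
      refine ⟨r + t * (r' - r), ?_⟩
      unfold Vale.Agent.P054.L2.lpt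
      funext i
      simp only [Pi.add_apply, Pi.smul_apply, Pi.sub_apply, smul_eq_mul]
      ring
    have h5 := plane_eq_of_three hn hn' hcr (LinP_OnP hb hL hy) (LinP_OnP hb hL hy') hw k1 k2 k3
    exact hzz ((h5 z).2 k4)
  rw [mem_union] at hz
  rcases hz with hz | hz
  · refine ⟨hg, ![z, a, u, u'], hz, haS, hu, hu', ?_, ?_⟩
    · intro i
      fin_cases i
      · exact haz
      · exact haa
      · exact hau
      · exact hau'
    · refine affInd_of_noPlane _ ?_
      intro n' d' hn'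
      by_contra hc
      push Not at hc
      exact key x2 b2 u.1 u'.1 a.1 z.1 hb2 hL2 hneu hou hou' (LinP_OnP hb1 hL1 haL) haoff hzoff n' d' hn'
        ⟨hc 2, hc 3, hc 1, hc 0⟩
  · refine ⟨hg, ![s, s', z, c], hs, hs', hz, hcS, ?_, ?_⟩
    · intro i
      fin_cases i
      · exact ha
      · exact ha'
      · exact haz
      · exact hca
    · refine affInd_of_noPlane _ ?_
      intro n' d' hn'
      by_contra hc
      push Not at hc
      exact key x1 b1 s.1 s'.1 c.1 z.1 hb1 hL1 hne ho ho' (LinP_OnP hb2 hL2 hcL) hcoff hzoff n' d' hn'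
        ⟨hc 0, hc 1, hc 3, hc 2⟩

end Vale.Agent.P054.Two
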