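import Vale.Agent.P054.R.Sections
import Vale.Agent.P054.Two.Geo

/-! P054, TwoStmt: the fibres of the partner map (comparable case). -/

set_option linter.all false
set_option autoImplicit false

namespace Vale.Agent.P054.Two

open Finset Matrix
open Vale.Agent.P054.R

/-- a set with two different lines with `k` points each has `rho ≥ k - 1` -/
theorem rho_two_lines (S : Finset V3) (k : ℕ) {x1 b1 x2 b2 : V3} (hb1 : b1 ≠ 0) (hb2 : b2 ≠ 0)
    (hdiff : DiffL x1 b1 x2 b2) (h1 : k ≤ on S x1 b1) (h2 : k ≤ on S x2 b2) : k ≤ rho S + 1 := by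
  classical
  obtain ⟨x, b, hb, hx⟩ := rho_spec S
  rw [← hx]
  -- the line `(x, b)` differs from one of the two lines
  have key : ∀ (x' b' : V3), b' ≠ 0 → DiffL x b x' b' → on S x' b' ≤ off S x b + 1 := by
    intro x' b' hb' hd
    have hsub : S.filter (fun a => OnL x' b' a) ⊆
        S.filter (fun a => ¬ OnL x b a) ∪ S.filter (fun a => OnL x b a ∧ OnL x' b' a) := by
      intro a ha
      rw [mem_filter] at ha
      rw [mem_union, mem_filter, mem_filter]
      by_cases h : OnL x b a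
      · exact Or.inr ⟨ha.1, h, ha.2⟩
      · exact Or.inl ⟨ha.1, h⟩
    have hone : (S.filter (fun a => OnL x b a ∧ OnL x' b' a)).card ≤ 1 := by
      rw [Finset.card_le_one]
      intro a ha c hc
      rw [mem_filter] at ha hc
      exact DiffL_inter hb hb' hd ha.2.1 ha.2.2 hc.2.1 hc.2.2
    have h3 := Finset.card_le_card hsub
    have h4 := Finset.card_union_le (S.filter (fun a => ¬ OnL x b a))
      (S.filter (fun a => OnL x b a ∧ OnL x' b' a))
    unfold on off
    omega
  by_cases hd : DiffL x b x1 b1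
  · exact le_trans h1 (key x1 b1 hb1 hd)
  · have hd2 : DiffL x b x2 b2 := by
      unfold DiffL at hd hdiff ⊢
      rw [not_not] at hd
      intro h
      apply hdiff
      intro a
      rw [← hd a, h a]
    exact le_trans h2 (key x2 b2 hb2 hd2)

open scoped Classical in
/-- fibres of the partner map -/
theorem fibre_bound (K3 : ℕ) (X Y : Finset V3) (G : Finset Iso) (k : Iso → ℕ)
    (n : Iso → V3) (d : Iso → ℝ) (x1 b1 x2 b2 : Iso → V3)
    (hG : ∀ g ∈ G, 4 ≤ k g ∧ n g ≠ 0 ∧ b1 g ≠ 0 ∧ b2 g ≠ 0 ∧ DiffL (x1 g) (b1 g) (x2 g) (b2 g) ∧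
      LinP (x1 g) (b1 g) (n g) (d g) ∧ LinP (x2 g) (b2 g) (n g) (d g) ∧
      k g ≤ on (M g X Y) (x1 g) (b1 g) ∧ k g ≤ on (M g X Y) (x2 g) (b2 g) ∧
      rho (M (prt g (n g) (d g)) X Y) ≤ K3 * k g) (h : Iso) :
    (G.filter (fun g => prt g (n g) (d g) = h)).card ≤ 32 * K3 ^ 3 := by
  set F := G.filter (fun g => prt g (n g) (d g) = h) with hF
  rcases F.eq_empty_or_nonempty with hE | hne
  · rw [hE]; simp
  have hsec := sections (M h X Y) Iso F n d (fun g hg => (hG g (mem_filter.1 hg).1).2.1) ?_ ?_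
  · -- lower bound for the sections
    have hlow : ∀ g ∈ F, rho (M h X Y) ≤ 2 * K3 * rho ((M h X Y).filter (OnP (n g) (d g))) ∧
        2 ≤ rho ((M h X Y).filter (OnP (n g) (d g))) := by
      intro g hg
      obtain ⟨hgG, hgh⟩ := mem_filter.1 hg
      obtain ⟨hk, hn, hb1, hb2, hdiff, hL1, hL2, h1, h2, h3⟩ := hG g hgG
      have hon : ∀ x b : V3, b ≠ 0 → LinP x b (n g) (d g) →
          on (M g X Y) x b ≤ on ((M h X Y).filter (OnP (n g) (d g))) x b := by
        intro x b hb hL
        unfold on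
        refine Finset.card_le_card ?_
        intro a ha
        rw [mem_filter] at ha
        have hp := LinP_OnP hb hL ha.2
        rw [mem_filter, mem_filter]
        refine ⟨⟨?_, hp⟩, ha.2⟩
        rw [← hgh]
        exact (M_prt_plane g hn X Y hp).2 ha.1
      have h4 := rho_two_lines ((M h X Y).filter (OnP (n g) (d g))) (k g) hb1 hb2 hdiff
        (le_trans h1 (hon _ _ hb1 hL1)) (le_trans h2 (hon _ _ hb2 hL2))
      rw [hgh] at h3
      refine ⟨?_, by omega⟩
      calc rho (M h X Y) ≤ K3 * k g := h3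
        _ ≤ K3 * (2 * rho ((M h X Y).filter (OnP (n g) (d g)))) := Nat.mul_le_mul_left _ (by omega)
        _ = 2 * K3 * rho ((M h X Y).filter (OnP (n g) (d g))) := by ring
    obtain ⟨g0, hg0⟩ := hne
    have hpos : 0 < rho (M h X Y) := by
      have h5 := (hlow g0 hg0).2
      have h6 : rho ((M h X Y).filter (OnP (n g0) (d g0))) ≤ rho (M h X Y) :=
        rho_mono (filter_subset _ _)
      omega
    have hsum : F.card * rho (M h X Y) ^ 3 ≤ 8 * K3 ^ 3 * (4 * rho (M h X Y) ^ 3) := by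
      calc F.card * rho (M h X Y) ^ 3 = ∑ g ∈ F, rho (M h X Y) ^ 3 := by
            rw [Finset.sum_const, smul_eq_mul]
        _ ≤ ∑ g ∈ F, 8 * K3 ^ 3 * (rho ((M h X Y).filter (OnP (n g) (d g)))) ^ 3 := by
            refine Finset.sum_le_sum (fun g hg => ?_)
            calc rho (M h X Y) ^ 3
                ≤ (2 * K3 * rho ((M h X Y).filter (OnP (n g) (d g)))) ^ 3 :=
                  Nat.pow_le_pow_left (hlow g hg).1 3
              _ = 8 * K3 ^ 3 * (rho ((M h X Y).filter (OnP (n g) (d g)))) ^ 3 := by ring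
        _ = 8 * K3 ^ 3 * ∑ g ∈ F, (rho ((M h X Y).filter (OnP (n g) (d g)))) ^ 3 := by
            rw [Finset.mul_sum]
        _ ≤ 8 * K3 ^ 3 * (4 * rho (M h X Y) ^ 3) := Nat.mul_le_mul_left _ hsec
    have h7 : F.card * rho (M h X Y) ^ 3 ≤ (32 * K3 ^ 3) * rho (M h X Y) ^ 3 := by
      refine le_trans hsum (le_of_eq ?_)
      ring
    exact Nat.le_of_mul_le_mul_right h7 (by positivity)
  · intro g hg g' hg' hne' hpl
    apply hne'
    obtain ⟨hgG, hgh⟩ := mem_filter.1 hg
    obtain ⟨hgG', hgh'⟩ := mem_filter.1 hg'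
    have hn := (hG g hgG).2.1
    have hn' := (hG g' hgG').2.1
    calc g = prt (prt g (n g) (d g)) (n g) (d g) := (prt_prt g _ _ hn).symm
      _ = prt h (n g) (d g) := by rw [hgh]
      _ = prt h (n g') (d g') := prt_congr h hn hn' hpl
      _ = prt (prt g' (n g') (d g')) (n g') (d g') := by rw [hgh']
      _ = g' := prt_prt g' _ _ hn'
  · intro g hg
    obtain ⟨hgG, hgh⟩ := mem_filter.1 hg
    obtain ⟨hk, hn, hb1, hb2, hdiff, hL1, hL2, h1, h2, h3⟩ := hG g hgG
    have hon : ∀ x b : V3, b ≠ 0 → LinP x b (n g) (d g) →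
        on (M g X Y) x b ≤ on ((M h X Y).filter (OnP (n g) (d g))) x b := by
      intro x b hb hL
      unfold on
      refine Finset.card_le_card ?_
      intro a ha
      rw [mem_filter] at ha
      have hp := LinP_OnP hb hL ha.2
      rw [mem_filter, mem_filter]
      refine ⟨⟨?_, hp⟩, ha.2⟩
      rw [← hgh]
      exact (M_prt_plane g hn X Y hp).2 ha.1
    have h4 := rho_two_lines ((M h X Y).filter (OnP (n g) (d g))) (k g) hb1 hb2 hdiff
      (le_trans h1 (hon _ _ hb1 hL1)) (le_trans h2 (hon _ _ hb2 hL2))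
    omega

end Vale.Agent.P054.Two
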